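import Vale.Agent.P011.Six.H586.Cen
import Vale.Agent.P011.One.SplitLT
import Vale.Agent.P011.Even.Completion

/-!
The centralizer of a quaternion algebra which remains a division algebra at a place.
-/

open Module TensorProduct NumberField IsDedekindDomain

set_option linter.unusedSectionVars false

namespace Vale.Agent.P011.Six.H623

open Vale.Agent.P011.Arith Vale.Agent.P011.Even Vale.Agent.P011.Two Vale.Agent.P011.One
open Vale.Agent.P011.MPQ (Qt nrd Aniso)
open Vale.Agent.P011.Six.H359 (Fr)
open Vale.Agent.P011.Six.H586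

section abstr

/-- The dimension of a subspace stable under a division algebra is divisible by the dimension of the
division algebra. -/
theorem dvd_finrank {F A C : Type} [Field F] [Ring A] [Algebra F A] [FiniteDimensional F A]
    [Ring C] [Nontrivial C] [Algebra F C] [FiniteDimensional F C]
    (hC : ∀ c : C, c ≠ 0 → IsUnit c) (ι : C →ₐ[F] A) (V : Submodule F A)
    (hV : ∀ c : C, ∀ v ∈ V, ι c * v ∈ V) : finrank F C ∣ finrank F V := by
  let _ : DivisionRing C := DivisionRing.ofIsUnitOrEqZero fun a => by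
    by_cases h : a = 0
    · exact Or.inr h
    · exact Or.inl (hC a h)
  let _ : Module C V :=
    { smul := fun c v => ⟨ι c * (v : A), hV c v v.2⟩
      one_smul := fun v => Subtype.ext (by
        change ι 1 * (v : A) = v
        rw [map_one, one_mul])
      mul_smul := fun c c' v => Subtype.ext (by
        change ι (c * c') * (v : A) = ι c * (ι c' * v)
        rw [map_mul, mul_assoc])
      smul_zero := fun c => Subtype.ext (mul_zero (ι c))
      smul_add := fun c v w => Subtype.ext (mul_add (ι c) (v : A) w)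
      add_smul := fun c c' v => Subtype.ext (by
        change ι (c + c') * (v : A) = ι c * v + ι c' * v
        rw [map_add, add_mul])
      zero_smul := fun v => Subtype.ext (by
        change ι 0 * (v : A) = 0
        rw [map_zero, zero_mul]) }
  have : IsScalarTower F C V := ⟨fun x c v => Subtype.ext (by
    change ι (x • c) * (v : A) = x • (ι c * v)
    rw [map_smul, smul_mul_assoc])⟩
  exact ⟨finrank C V, (finrank_mul_finrank F C V).symm⟩

/-- An algebra of dimension 36 containing division algebras of dimensions 9 and 4 is a division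
algebra. -/
theorem isUnit_of_div {F A C Q : Type} [Field F] [Ring A] [Algebra F A] [FiniteDimensional F A]
    (hA : finrank F A = 36) [Ring C] [Nontrivial C] [Algebra F C] [FiniteDimensional F C]
    (h9 : finrank F C = 9) (hC : ∀ c : C, c ≠ 0 → IsUnit c) (ι : C →ₐ[F] A)
    [Ring Q] [Nontrivial Q] [Algebra F Q] [FiniteDimensional F Q]
    (h4 : finrank F Q = 4) (hQ : ∀ c : Q, c ≠ 0 → IsUnit c) (κ : Q →ₐ[F] A)
    {x : A} (hx : x ≠ 0) : IsUnit x := by
  let m := LinearMap.mulRight F x
  let V : Submodule F A := LinearMap.range m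
  have hm : ∀ a, m a = a * x := fun a => LinearMap.mulRight_apply _ _ _
  have hst : ∀ a : A, ∀ v ∈ V, a * v ∈ V := by
    rintro a _ ⟨b, rfl⟩
    exact ⟨a * b, by rw [hm, hm, mul_assoc]⟩
  have d9 : 9 ∣ finrank F V := h9 ▸ dvd_finrank hC ι V fun c => hst (ι c)
  have d4 : 4 ∣ finrank F V := h4 ▸ dvd_finrank hQ κ V fun c => hst (κ c)
  have hxV : x ∈ V := ⟨1, by rw [hm, one_mul]⟩
  have hpos : 0 < finrank F V := by
    have : Nontrivial V := ⟨⟨⟨x, hxV⟩, 0, fun h => hx (congrArg Subtype.val h)⟩⟩
    exact finrank_pos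
  have hle : finrank F V ≤ 36 := hA ▸ Submodule.finrank_le V
  have h36 : finrank F V = finrank F A := by omega
  have htop : V = ⊤ := Submodule.eq_top_of_finrank_eq h36
  have hsurj : Function.Surjective m := LinearMap.range_eq_top.mp htop
  have hinj : Function.Injective m := LinearMap.injective_iff_surjective.mpr hsurj
  obtain ⟨a, ha⟩ := hsurj 1
  rw [hm] at ha
  have h1 : x * a = 1 := hinj (by rw [hm, hm, mul_assoc, ha, mul_one, one_mul])
  exact ⟨⟨x, a, h1, ha⟩, rfl⟩

/-- Anisotropy of the norm form of a quadratic extension. -/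
theorem nf_zero {F : Type} [Field F] (h2 : (2 : F) ≠ 0) {a b : Fˣ} (h : b ∉ LN a) {p q : F}
    (hpq : p ^ 2 - a * q ^ 2 = 0) : p = 0 ∧ q = 0 := by
  have ha : (a : F) ≠ 0 := a.ne_zero
  by_cases hq : q = 0
  · subst hq
    have : p ^ 2 = 0 := by linear_combination hpq
    exact ⟨pow_eq_zero_iff (two_ne_zero) |>.mp this, rfl⟩
  · exfalso
    apply h
    have hp : p ≠ 0 := by
      rintro rfl
      have h3 : (a : F) * q ^ 2 = 0 := by linear_combination -hpq
      rcases mul_eq_zero.mp h3 with h4 | h4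
      · exact ha h4
      · exact hq (pow_eq_zero_iff (two_ne_zero) |>.mp h4)
    refine ⟨(b + 1) / 2, (b - 1) / 2 * (q / p), ?_⟩
    field_simp
    linear_combination (-(b - 1 : F) ^ 2) * hpq

theorem aniso_of_LN {F : Type} [Field F] (h2 : (2 : F) ≠ 0) {a b : Fˣ} (h : b ∉ LN a) :
    Aniso a b := by
  intro x hx
  have e : nrd x = (x.re ^ 2 - a * x.imI ^ 2) - b * (x.imJ ^ 2 - a * x.imK ^ 2) := by
    rw [nrd]
    ring
  rw [e] at hx
  by_cases h3 : x.imJ ^ 2 - a * x.imK ^ 2 = 0
  · rw [h3, mul_zero, sub_zero] at hx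
    obtain ⟨h4, h5⟩ := nf_zero h2 h h3
    obtain ⟨h6, h7⟩ := nf_zero h2 h hx
    ext
    · exact h6
    · exact h7
    · exact h4
    · exact h5
  · exfalso
    have h4 : x.re ^ 2 - a * x.imI ^ 2 ≠ 0 := by
      intro h0
      rw [h0, zero_sub, neg_eq_zero] at hx
      exact (mul_ne_zero b.ne_zero h3) hx
    obtain ⟨n₁, hn₁⟩ : ∃ n₁ : Fˣ, (n₁ : F) = x.re ^ 2 - a * x.imI ^ 2 := ⟨Units.mk0 _ h4, rfl⟩
    obtain ⟨n₂, hn₂⟩ : ∃ n₂ : Fˣ, (n₂ : F) = x.imJ ^ 2 - a * x.imK ^ 2 := ⟨Units.mk0 _ h3, rfl⟩
    apply h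
    have h5 : b = n₁ / n₂ := by
      rw [eq_div_iff_mul_eq']
      apply Units.ext
      rw [Units.val_mul, hn₁, hn₂]
      linear_combination -hx
    rw [h5]
    exact div_mem ⟨_, _, hn₁⟩ ⟨_, _, hn₂⟩

theorem unit_of_aniso {F : Type} [Field F] {a b : Fˣ} (h : Aniso a b) (x : Qt a b) (hx : x ≠ 0) :
    IsUnit x := by
  have h0 : nrd x ≠ 0 := fun h1 => hx (h x h1)
  have h1 : x * star x = nrd x • (1 : Qt a b) := by
    ext <;> simp [nrd] <;> ring
  have h2 : star x * x = nrd x • (1 : Qt a b) := by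
    ext <;> simp [nrd] <;> ring
  refine ⟨⟨x, (nrd x)⁻¹ • star x, ?_, ?_⟩, rfl⟩
  · rw [mul_smul_comm, h1, smul_smul, inv_mul_cancel₀ h0, one_smul]
  · rw [smul_mul_assoc, h2, smul_smul, inv_mul_cancel₀ h0, one_smul]

/-- The quaternion algebra generated by two anticommuting elements. -/
theorem exists_quat {F A : Type} [Field F] [Ring A] [Algebra F A] {a b : Fˣ} {i j : A}
    (hi : i * i = algebraMap F A a) (hj : j * j = algebraMap F A b) (hij : i * j = -(j * i)) :
    Nonempty (Qt a b →ₐ[F] A) := by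
  refine ⟨QuaternionAlgebra.Basis.liftHom
    { i := i, j := j, k := i * j, i_mul_i := ?_, j_mul_j := ?_, i_mul_j := rfl, j_mul_i := ?_ }⟩
  · rw [hi, zero_smul, add_zero, Algebra.algebraMap_eq_smul_one]
  · rw [hj, Algebra.algebraMap_eq_smul_one]
  · rw [zero_smul, zero_sub, hij, neg_neg]

end abstr

variable {k K D : Type} [Field k] [NumberField k] [Field K] [NumberField K] [StarRing K]
  [DivisionRing D] [StarRing D] [Algebra k K] [Algebra k D] [Algebra K D] [IsScalarTower k K D]
  {d : kˣ} {s : K} {al be : kˣ} {i j : D}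

/-- The quaternion algebra over the completion. -/
theorem exists_quat_loc (hF : Fr k al be i j) {v : HeightOneSpectrum (𝓞 k)}
    (φ : K →ₐ[k] v.adicCompletion k) :
    letI := (φ : K →+* v.adicCompletion k).toAlgebra
    Nonempty (Qt (iu v al) (iu v be) →ₐ[v.adicCompletion k] v.adicCompletion k ⊗[K] D) := by
  let _ : Algebra K (v.adicCompletion k) := (φ : K →+* v.adicCompletion k).toAlgebra
  have key : ∀ c : k, (1 : v.adicCompletion k) ⊗ₜ[K] (algebraMap k D c) =
      algebraMap (v.adicCompletion k) (v.adicCompletion k ⊗[K] D)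
        (algebraMap k (v.adicCompletion k) c) := by
    intro c
    rw [IsScalarTower.algebraMap_apply k K D, Algebra.algebraMap_eq_smul_one (R := K),
      ← TensorProduct.smul_tmul]
    have h1 : (algebraMap k K c) • (1 : v.adicCompletion k) =
        algebraMap k (v.adicCompletion k) c := by
      rw [Algebra.smul_def, mul_one]
      exact φ.commutes c
    rw [h1]
    rfl
  refine exists_quat (i := (1 : v.adicCompletion k) ⊗ₜ[K] i) (j := (1 : v.adicCompletion k) ⊗ₜ[K] j)
    ?_ ?_ ?_
  · rw [Algebra.TensorProduct.tmul_mul_tmul, one_mul, hF.ii, key]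
    rfl
  · rw [Algebra.TensorProduct.tmul_mul_tmul, one_mul, hF.jj, key]
    rfl
  · rw [Algebra.TensorProduct.tmul_mul_tmul, Algebra.TensorProduct.tmul_mul_tmul, one_mul, hF.ij,
      TensorProduct.tmul_neg]

/-- **The centralizer is not a division algebra at a place where the quaternion algebra is one and
the whole algebra is not.** -/
theorem tdiv_cc (hS : Setting k K D d s) (hdeg : finrank K D = 6 ^ 2) (hF : Fr k al be i j)
    (v : HeightOneSpectrum (𝓞 k)) (hbe : be ∉ NF al ⊔ LS (v.valuation k))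
    (hT : (Sum.inl v : Pl k) ∉ Tdiv k K D) : (Sum.inl v : Pl k) ∉ Tdiv k K (CC K i j) := by
  rintro ⟨v', hv, φ, hφ⟩
  obtain rfl : v = v' := Sum.inl_injective hv
  apply hT
  refine ⟨v, rfl, φ, ?_⟩
  have := hS.fin
  have hfin : FiniteDimensional K (CC K i j) :=
    inferInstanceAs (FiniteDimensional K (Subalgebra.centralizer K ({i, j} : Set D)))
  let _ : Algebra K (v.adicCompletion k) := (φ : K →+* v.adicCompletion k).toAlgebra
  obtain ⟨κ⟩ := exists_quat_loc hF φ
  let ι : v.adicCompletion k ⊗[K] CC K i j →ₐ[v.adicCompletion k] v.adicCompletion k ⊗[K] D :=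
    Algebra.TensorProduct.map (AlgHom.id _ _) (vv K)
  have h36 : finrank (v.adicCompletion k) (v.adicCompletion k ⊗[K] D) = 36 := by
    rw [finrank_baseChange, hdeg]
    norm_num
  have h9 : finrank (v.adicCompletion k) (v.adicCompletion k ⊗[K] CC K i j) = 9 := by
    rw [finrank_baseChange, finrank_CC9 hS hF hdeg]
    norm_num
  have hnt : Nontrivial (v.adicCompletion k ⊗[K] CC K i j) := by
    apply nontrivial_of_finrank_pos (R := v.adicCompletion k)
    rw [h9]
    norm_num
  have han : Aniso (iu v al) (iu v be) := by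
    apply aniso_of_LN two_ne_zero
    rw [mem_LN_iff]
    exact hbe
  intro x hx
  exact isUnit_of_div h36 h9 hφ ι (QuaternionAlgebra.finrank_eq_four _ _ _) (unit_of_aniso han) κ hx

end Vale.Agent.P011.Six.H623
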