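import Vale.Agent.P011.One.SplitLT
import Vale.Agent.P011.One.TwoModel

/-!
Splitting of algebras of degree three at the places of the ground field which split.
-/

open Module TensorProduct NumberField IsDedekindDomain

set_option linter.unusedSectionVars false

namespace Vale.Agent.P011.Six.H623

open Vale.Agent.P011.Arith Vale.Agent.P011.Even Vale.Agent.P011.Two Vale.Agent.P011.One

/-- If a matrix model has at least two rows and degree three, then it is the split model. -/
theorem exists_of_wed {K D F : Type} [Field K] [DivisionRing D] [Algebra K D] [Field F]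
    [Algebra K F] {r : ℕ} {E : Type} [DivisionRing E] [Algebra F E] [FiniteDimensional F E]
    (ψ : F ⊗[K] D ≃ₐ[F] Matrix (Fin r) (Fin r) E) (hr : 2 ≤ r)
    (h : r ^ 2 * finrank F E = 3 ^ 2) :
    ∃ f : D →+* Matrix (Fin 3) (Fin 3) F,
      ∀ c : K, f (algebraMap K D c) = Matrix.scalar (Fin 3) (algebraMap K F c) := by
  have hpos : 0 < finrank F E := finrank_pos
  have hr3 : r = 3 := by
    have h1 : r < 4 := by
      by_contra hcon
      push Not at hcon
      have h2 : 4 ^ 2 ≤ r ^ 2 := Nat.pow_le_pow_left hcon 2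
      nlinarith
    interval_cases r
    · omega
    · rfl
  subst hr3
  have hE : finrank F E = 1 := by omega
  have hb : Function.Bijective (algebraMap F E) := by
    refine ⟨(algebraMap F E).injective, ?_⟩
    rw [Algebra.surjective_algebraMap_iff]
    exact (Subalgebra.bot_eq_top_iff_finrank_eq_one.mpr hE).symm
  let g : F ≃ₐ[F] E := AlgEquiv.ofBijective (Algebra.ofId F E) hb
  let G : Matrix (Fin 3) (Fin 3) E ≃ₐ[F] Matrix (Fin 3) (Fin 3) F := g.symm.mapMatrix
  let i : D →ₐ[K] F ⊗[K] D := Algebra.TensorProduct.includeRight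
  refine ⟨((G : Matrix (Fin 3) (Fin 3) E →+* Matrix (Fin 3) (Fin 3) F).comp
    (ψ : F ⊗[K] D →+* Matrix (Fin 3) (Fin 3) E)).comp (i : D →+* F ⊗[K] D), fun c => ?_⟩
  change G (ψ (i (algebraMap K D c))) = _
  have h1 : i (algebraMap K D c) = algebraMap F (F ⊗[K] D) (algebraMap K F c) := by
    rw [i.commutes]
    rfl
  rw [h1, ψ.commutes, G.commutes]
  rfl

variable {k K D : Type} [Field k] [NumberField k] [Field K] [NumberField K] [StarRing K]
  [DivisionRing D] [StarRing D] [Algebra k K] [Algebra k D] [Algebra K D] [IsScalarTower k K D]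
  [StarModule K D] [Algebra.IsCentral K D] [FiniteDimensional K D]
  {d : kˣ} {s : K}

/-- **Finite places which split, degree three.** -/
theorem exists_splAt3 (hS : Setting k K D d s) (hdeg : finrank K D = 3 ^ 2)
    (v : HeightOneSpectrum (𝓞 k)) (hv : d ∈ LS (v.valuation k))
    (hT : (Sum.inl v : Pl k) ∉ Tdiv k K D) :
    ∃ (φ : K →+* v.adicCompletion k)
      (f : D →+* Matrix (Fin 3) (Fin 3) (v.adicCompletion k)), SplAt K D 3 v φ f := by
  obtain ⟨θ, hθ⟩ := (isSquare_iff v d).mpr hv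
  obtain ⟨φ, -⟩ := exists_lift hS (F := v.adicCompletion k) (θ := θ) (by rw [hθ, sq])
  let _ : Algebra K (v.adicCompletion k) := (φ : K →+* v.adicCompletion k).toAlgebra
  obtain ⟨r, hr0, E, _, _, _, _, ψ, hψ⟩ := P011S.exists_wed (E := v.adicCompletion k) hdeg
  have hnu : ∃ x : v.adicCompletion k ⊗[K] D, x ≠ 0 ∧ ¬ IsUnit x := by
    by_contra hcon
    push Not at hcon
    exact hT ⟨v, rfl, φ, hcon⟩
  have hr := two_le_of_not_unit (ψ : v.adicCompletion k ⊗[K] D ≃+* Matrix (Fin r) (Fin r) E) hnu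
  obtain ⟨f, hf⟩ := exists_of_wed ψ hr hψ
  exact ⟨(φ : K →+* v.adicCompletion k), f, ⟨fun c => φ.commutes c, hf⟩⟩

/-- **Real places which split, degree three.** -/
theorem exists_spl_real3 (hS : Setting k K D d s) (hdeg : finrank K D = 3 ^ 2) (τ : k →+* ℝ)
    (hτ : 0 < τ d) :
    ∃ (φ : K →+* ℝ) (f : D →+* Matrix (Fin 3) (Fin 3) ℝ),
      (∀ c : k, φ (algebraMap k K c) = τ c) ∧
        ∀ c : K, f (algebraMap K D c) = Matrix.scalar (Fin 3) (φ c) := by
  let _ : Algebra k ℝ := τ.toAlgebra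
  obtain ⟨φ, -⟩ := exists_lift hS (F := ℝ) (θ := √(τ d)) (Real.sq_sqrt hτ.le)
  let _ : Algebra K ℝ := (φ : K →+* ℝ).toAlgebra
  obtain ⟨r, hr0, E, _, _, _, _, ψ, hψ⟩ := P011S.exists_wed (E := ℝ) hdeg
  have hr : 2 ≤ r := by
    by_contra hr
    have hr1 : r = 1 := by
      have := NeZero.ne r
      omega
    subst hr1
    have h4 : finrank ℝ E ≤ 4 := finrank_le_four
    omega
  obtain ⟨f, hf⟩ := exists_of_wed ψ hr hψ
  exact ⟨(φ : K →+* ℝ), f, fun c => φ.commutes c, hf⟩

end Vale.Agent.P011.Six.H623
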